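import Vale.Agent.P159.TM.H164.AsmA
import Vale.Agent.P159.TM.H164.AsmB
import Vale.Agent.P159.TM.H783.Cell3
import Vale.Agent.P159.TM.H783.Nums
import Vale.Agent.P159.TM.H556.Num
import Vale.Agent.P159.TM.H339.BadF

/-!
P159 T1, part C, row ASMC: the theorem `stepC`, one renormalisation step at zero charge energy.
-/

set_option linter.unusedSectionVars false

open MeasureTheory

namespace Vale.Agent.P159.TM.H907

open Vale.Agent.P159.TM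
open Vale.Agent.P159.TM.SpecC
open Vale.Agent.P159.TM.H859 (tn dirE Mn two_le_Mn)
open Vale.Agent.P159.TM.H365 (AA)
open Vale.Agent.P159.TM.H783 (s2c s2c_pos gg)
open Vale.Agent.P159.TM.H215 (Ft tcA eLoc)

noncomputable section

theorem tcA_nonneg {ρ δ : ℝ} (hρ : 0 < ρ) (h0 : 0 < δ) (h1 : δ ≤ 1 / 2) : 0 ≤ tcA ρ δ := by
  have hlog : 0 ≤ Real.log (5 / (2 * δ)) := by
    apply Real.log_nonneg
    rw [le_div_iff₀ (by positivity)]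
    linarith
  unfold H215.tcA
  positivity

theorem eLoc_nonneg (K M : ℕ) {Cb : ℝ} (cb R : ℝ) (hCb : 0 ≤ Cb) : 0 ≤ eLoc K M Cb cb R := by
  unfold H215.eLoc
  positivity

section step

variable {N M K ξ r : ℕ} [NeZero N] [NeZero M] [NeZero (K * M)] {b : ℝ}

/-- `kap ≤ y (K M)²` -/
theorem kap_T (hξ : 0 < ξ) (hN : N = K * M * ξ) {y a : ℝ} (hQ : QU (wT b N) ξ y a) :
    H871.kap (wT b N) (ms ξ) ≤ y * ((K : ℝ) * M) ^ 2 := by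
  have hξ' : (0 : ℝ) < ξ := by exact_mod_cast hξ
  refine (H870.kap_le hQ).trans (le_of_eq ?_)
  rw [hN]
  push_cast
  field_simp

theorem den_ge {m : ℕ} (hm1 : 1 ≤ m) : (1 : ℝ) ≤ 2 * Real.pi * |((m : ℤ) : ℝ)| := by
  have hkr : (1 : ℝ) ≤ |((m : ℤ) : ℝ)| := by
    rw [Int.cast_natCast, abs_of_nonneg (by positivity)]
    exact_mod_cast hm1
  have hpi := Real.pi_gt_three
  nlinarith

/-- the uniform bound of the clamped functional -/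
theorem Ft_B0 (hb : 0 ≤ b) (hξ : 0 < ξ) (hK : 0 < K) (hM : 0 < M) (hN : N = K * M * ξ) {y a : ℝ}
    (hQ : QU (wT b N) ξ y a) (hy : 0 < y) (hw : y * ((K : ℝ) * M) ^ 2 ≤ 1) {L₀ R ρ : ℝ}
    (hρ0 : 0 < ρ) (hρ2 : ρ ≤ Real.exp (-1)) {m : ℕ} (hm1 : 1 ≤ m) (u : Tor (K * M))
    (f : Tor N → ℝ) :
    ‖Ft (wT b N) ξ L₀ R m u f‖ ≤ tcA ρ (y * ((K : ℝ) * M) ^ 2 / 2) := by
  have hξ' : (0 : ℝ) < ξ := by exact_mod_cast hξ
  have hK' : (0 : ℝ) < K := by exact_mod_cast hK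
  have hM' : (0 : ℝ) < M := by exact_mod_cast hM
  have hk : (m : ℤ) ≠ 0 := by exact_mod_cast (by omega : m ≠ 0)
  have hms : ∀ x : Tor N, 0 < ms (N := N) (ξ : ℝ) x := by
    intro x
    unfold ms
    positivity
  have hkap := kap_T hξ hN hQ
  have hδ0 : 0 < y * ((K : ℝ) * M) ^ 2 / 2 := by positivity
  have hδ1 : y * ((K : ℝ) * M) ^ 2 / 2 ≤ 1 / 2 := by linarith
  refine (H215.Ft_any (n := K * M) hN hξ (H870.wt_T hb) (fun h => H870.shift_T h)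
    (H870.sup_T hb) (fun h => H870.even_T hb h) (H870.gin_T hb hms) hρ0 hρ2 (hkap.trans hw)
    hδ0 hδ1 (by linarith) u f hk).trans ?_
  exact div_le_self (tcA_nonneg hρ0 hδ0 hδ1) (den_ge hm1)

/-- the bound of the clamped functional at slowly varying backgrounds -/
theorem Ft_B1 (hb : 0 ≤ b) (hξ : 0 < ξ) (hK : 0 < K) (hM : 0 < M) (hN : N = K * M * ξ) {y a : ℝ}
    (hQ : QU (wT b N) ξ y a) (hy : 0 < y) (hw : y * ((K : ℝ) * M) ^ 2 ≤ 1) {L₀ Cb cb R ρ : ℝ}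
    (hL₀ : 0 < L₀) (hCb : 0 ≤ Cb) (hcb : 0 ≤ cb) (hB : BOut (wT b N) ξ (L₀ / ξ) Cb cb)
    (hR : 2 ≤ R) (hKR : 6 * R + 8 < K) (hρ0 : 0 < ρ) (hρ1 : ρ ≤ L₀ / 8)
    (hρ2 : ρ ≤ Real.exp (-1)) (hKy : (K : ℝ) ^ 2 * y ≤ 1 / 2)
    (hd : 3 * (L₀ * (R + 5 / 2) * eLoc K M Cb cb R)
      + y * ((K : ℝ) * M) ^ 2 / (2 * (M : ℝ) ^ 2) ≤ (K : ℝ) ^ 2 * y)
    {m : ℕ} (hm1 : 1 ≤ m) (u : Tor (K * M)) (f : Tor N → ℝ) (hf : LipT (L₀ / (4 * ξ)) f) :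
    ‖Ft (wT b N) ξ L₀ R m u f‖ ≤ tcA ρ ((K : ℝ) ^ 2 * y) + L₀ * K * M * eLoc K M Cb cb R := by
  have hξ' : (0 : ℝ) < ξ := by exact_mod_cast hξ
  have hK' : (0 : ℝ) < K := by exact_mod_cast hK
  have hM' : (0 : ℝ) < M := by exact_mod_cast hM
  have hk : (m : ℤ) ≠ 0 := by exact_mod_cast (by omega : m ≠ 0)
  have hms : ∀ x : Tor N, 0 < ms (N := N) (ξ : ℝ) x := by
    intro x
    unfold ms
    positivity
  have hkap := kap_T hξ hN hQ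
  have hδ0 : 0 < (K : ℝ) ^ 2 * y := by positivity
  have he := eLoc_nonneg K M cb R hCb
  refine (H215.Ft_lip hN hM hξ (H870.wt_T hb) (fun h => H870.shift_T h)
    (H870.sup_T hb) (fun h => H870.even_T hb h) (H870.gin_T hb hms)
    (fun h a => H870.trans_T h a) hL₀ hCb hcb hB hR hKR hρ0 hρ1 hρ2 (hkap.trans hw)
    hδ0 hKy ?_ u hf hk).trans ?_
  · refine le_trans ?_ hd
    have h2 : (0 : ℝ) < 2 * (M : ℝ) ^ 2 := by positivity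
    have h3 := div_le_div_of_nonneg_right hkap h2.le
    linarith
  · refine div_le_self ?_ (den_ge hm1)
    have := tcA_nonneg hρ0 hδ0 hKy
    positivity

/-- the expectation of the charged functional, all inputs of part C in one place -/
theorem D_bound (hb0 : 0 ≤ b) {bb : ℝ} (hbb : b ≤ bb) (hbb0 : 0 < bb) (hξ : 0 < ξ) (hK : 18 ≤ K)
    (hM : 2 ≤ M) (hN : N = K * M * ξ) (hr1 : 2 * r ≤ ξ) (hr2 : ξ ≤ 2 * r + 1) {y a : ℝ}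
    (hQ : QU (wT b N) ξ y a) (hy : 0 < y) (hw1 : y * ((K : ℝ) * M) ^ 2 ≤ 1)
    {L₀ Cb cb R ρ s Cg : ℝ} (hL₀ : 0 < L₀) (hCb : 0 ≤ Cb) (hcb : 0 ≤ cb)
    (hB : BOut (wT b N) ξ (L₀ / ξ) Cb cb) (hR2 : 2 ≤ R) (hR6 : 6 * R + 8 < K)
    (hRK : 2 * (R + 2) ≤ K) (hρ0 : 0 < ρ) (hρ1 : ρ ≤ L₀ / 8) (hρ2 : ρ ≤ Real.exp (-1))
    (hKy : (K : ℝ) ^ 2 * y ≤ 1 / 2)
    (hd1 : 3 * (L₀ * (R + 5 / 2) * eLoc K M Cb cb R)
      + y * ((K : ℝ) * M) ^ 2 / (2 * (M : ℝ) ^ 2) ≤ (K : ℝ) ^ 2 * y)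
    (hLξ : L₀ / 8 ≤ 10 * bb * ξ)
    (hsh : ∀ (R B0 B1 pb : ℝ) (m : ℕ) (u : Tor (K * M)), 1 ≤ m → 0 ≤ R → 2 * (R + 2) ≤ K →
      (∀ f, ‖Ft (wT b N) ξ L₀ R m u f‖ ≤ B0) → 0 ≤ B1 →
      (∀ f, LipT (L₀ / (4 * ξ)) f → ‖Ft (wT b N) ξ L₀ R m u f‖ ≤ B1) →
      ((∫ G in {G : Tor M → ℝ | LipT (L₀ / (8 * ξ)) (AA (N := N) (K * ξ) r G)}ᶜ,
          H104.rho (wT b N) (ms ξ) (AA (K * ξ) r) (s2c M K) G)
        ≤ pb * ∫ G : Tor M → ℝ, H104.rho (wT b N) (ms ξ) (AA (N := N) (K * ξ) r) (s2c M K) G) →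
      ‖∫ G : Tor M → ℝ, Ft (wT b N) ξ L₀ R m u (AA (K * ξ) r G) *
          (H104.rho (wT b N) (ms ξ) (AA (K * ξ) r) (s2c M K) G : ℂ)‖ ≤
        (B0 * pb + (B1 * (Real.exp (Cg * ((K : ℝ) * M) ^ 6 * Real.exp (-(cb * K))) - 1) +
          Cg * B1 * gg s K M m)) *
        ∫ G : Tor M → ℝ, H104.rho (wT b N) (ms ξ) (AA (N := N) (K * ξ) r) (s2c M K) G)
    {m : ℕ} (hm : 1 ≤ m) {pb : ℝ}
    (hpb : 20 * (M : ℝ) ^ 2 * Real.exp (-(H339.c0 (L₀ / 8) bb * K)) = pb) :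
    ‖∫ G : Tor M → ℝ, H215.xm (H104.U (wT b N) (ms ξ)) (m : ℤ) (AA (K * ξ) r G) *
        (H845.rho (wT b N) (ms ξ) (AA (K * ξ) r) (s2c M K) G : ℂ)‖ ≤
      ((K * M : ℝ) ^ 2 * y / 4 * pb + (K * M : ℝ) ^ 2 *
        (L₀ * K * M * eLoc K M Cb cb R + tcA ρ (y * ((K : ℝ) * M) ^ 2 / 2) * pb +
          (tcA ρ (y * ((K : ℝ) * M) ^ 2 / 2) * pb +
            ((tcA ρ ((K : ℝ) ^ 2 * y) + L₀ * K * M * eLoc K M Cb cb R) *
              (Real.exp (Cg * ((K : ℝ) * M) ^ 6 * Real.exp (-(cb * K))) - 1) +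
              Cg * (tcA ρ ((K : ℝ) ^ 2 * y) + L₀ * K * M * eLoc K M Cb cb R) *
                gg s K M m)))) *
      ∫ G : Tor M → ℝ, H845.rho (wT b N) (ms ξ) (AA (K * ξ) r) (s2c M K) G := by
  have hK0' : 0 < K := by omega
  have hM0 : 0 < M := by omega
  have hKr : (0 : ℝ) < K := by exact_mod_cast hK0'
  have hMr : (0 : ℝ) < M := by exact_mod_cast hM0
  have hξ' : (0 : ℝ) < ξ := by exact_mod_cast hξ
  have hs2 : 0 < s2c M K := s2c_pos hM hK0'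
  have hel := eLoc_nonneg K M cb R hCb
  have hbad : ∫ G in {G : Tor M → ℝ | LipT (L₀ / (8 * ξ)) (AA (N := N) (K * ξ) r G)}ᶜ,
      H845.rho (wT b N) (ms ξ) (AA (N := N) (K * ξ) r) (s2c M K) G ≤
      pb * ∫ G : Tor M → ℝ, H845.rho (wT b N) (ms ξ) (AA (N := N) (K * ξ) r) (s2c M K) G := by
    have h := H339.bad_T (K := K) (M := M) hN (by omega) hξ hr1 hr2 hb0 hbb
      hbb0 (L := L₀ / 8) (by positivity) hLξ hQ hw1 hs2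
    rw [div_div, hpb] at h
    exact h
  have hB10 : 0 ≤ tcA ρ ((K : ℝ) ^ 2 * y) + L₀ * K * M * eLoc K M Cb cb R := by
    have := tcA_nonneg hρ0 (show 0 < (K : ℝ) ^ 2 * y by positivity) hKy
    positivity
  have hsh' := fun (u : Tor (K * M)) =>
    hsh R _ _ pb m u hm (by linarith) hRK
      (fun f => Ft_B0 (L₀ := L₀) (R := R) hb0 hξ hK0' hM0 hN hQ hy hw1 hρ0 hρ2 hm u f) hB10
      (fun f hf => Ft_B1 hb0 hξ hK0' hM0 hN hQ hy hw1 hL₀ hCb hcb hB hR2 hR6 hρ0 hρ1 hρ2 hKy hd1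
        hm u f hf) hbad
  exact H164.hD_of hb0 hξ hK0' hN hs2 hQ hy.le (by linarith) hL₀ hCb hcb hB hR2 hρ0 hρ2
      (δ := y * ((K : ℝ) * M) ^ 2 / 2) (by positivity) (by linarith) (le_of_eq (by ring)) hm
      (S := {G : Tor M → ℝ | LipT (L₀ / (8 * ξ)) (AA (N := N) (K * ξ) r G)})
      (H845.lipT_meas H845.AA_cont) (fun G hG x z => (hG x z).trans (by
        refine mul_le_mul_of_nonneg_right ?_ (H859.tn_nonneg _)
        exact div_le_div_of_nonneg_left hL₀.le (by positivity) (by linarith)))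
      hsh' hbad

end step

/-- the numbers, `H556.num` applied -/
theorem num_app {C C' Cg c cb c1 n y a0 a1 s e B0 B1 pb : ℝ} {K M : ℕ} (hy : 0 ≤ y)
    (hn0 : 0 ≤ n) (hCC' : C' ≤ C) (hCg : 0 ≤ Cg) (hCCg : Cg ≤ C) (hC20 : 20 ≤ C)
    (hc6 : c ≤ cb / 6) (hcb : 0 < cb) (hcc : c ≤ c1)
    (hpb : 20 * (M : ℝ) ^ 2 * Real.exp (-(c1 * K)) = pb)
    (hnum : ∀ (pb e B0 B1 d1 : ℝ) (g D : ℕ → ℝ), 0 ≤ pb → 0 ≤ B1 → 0 ≤ d1 →
      pb ≤ C * (M : ℝ) ^ 2 * Real.exp (-(c * K)) →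
      e ≤ C * n ^ 6 * ((K : ℝ) * M) ^ 6 * Real.exp (-(c * K)) →
      B0 ≤ C * n ^ 6 * ((K : ℝ) * M) ^ 2 * y →
      B1 ≤ C * n ^ 6 * y →
      d1 ≤ C * ((K : ℝ) * M) ^ 6 * Real.exp (-(c * K)) →
      g 1 ≤ ((K : ℝ) / M) ^ s → (∀ m, 2 ≤ m → g m ≤ ((K : ℝ) / M) ^ (4 * s)) →
      (∀ m, 1 ≤ m → D m ≤ C * ((K : ℝ) * M) ^ 2 * y * pb + ((K : ℝ) * M) ^ 2 *
        (e + B0 * pb + (B0 * pb + B1 * (Real.exp d1 - 1) + C * B1 * g m))) →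
      a0 * ∑ m ∈ Finset.Icc 1 ((K * M) ^ 2),
          (m : ℝ) ^ 2 * (D m + C * ((K : ℝ) * M) ^ 4 * y ^ 2)
        + a1 * Real.exp (-((K : ℝ) * M) ^ 2)
        ≤ y / 4 * (K : ℝ) ^ 2)
    (he : e ≤ C' * n ^ 6 * ((K : ℝ) * M) ^ 6 * Real.exp (-(cb / 6 * K)))
    (hB0 : B0 ≤ C' * n ^ 6 * ((K : ℝ) * M) ^ 2 * y) (hB1 : B1 ≤ C' * n ^ 6 * y)
    (hB10 : 0 ≤ B1) :
    a0 * ∑ m ∈ Finset.Icc 1 ((K * M) ^ 2),
        (m : ℝ) ^ 2 * ((((K : ℝ) * M) ^ 2 * y / 4 * pb + ((K : ℝ) * M) ^ 2 *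
          (e + B0 * pb + (B0 * pb +
            (B1 * (Real.exp (Cg * ((K : ℝ) * M) ^ 6 * Real.exp (-(cb * K))) - 1) +
              Cg * B1 * gg s K M m)))) + C * ((K : ℝ) * M) ^ 4 * y ^ 2)
      + a1 * Real.exp (-((K : ℝ) * M) ^ 2) ≤ y / 4 * (K : ℝ) ^ 2 := by
  have hpb0 : 0 ≤ pb := by
    rw [← hpb]
    positivity
  have hd0 : 0 ≤ Cg * ((K : ℝ) * M) ^ 6 * Real.exp (-(cb * K)) := by positivity
  have hC0 : 0 ≤ C := by linarith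
  have hKr : (0 : ℝ) ≤ K := by positivity
  refine hnum pb e B0 B1 (Cg * ((K : ℝ) * M) ^ 6 * Real.exp (-(cb * K))) (gg s K M) _
    hpb0 hB10 hd0 ?_ ?_ ?_ ?_ ?_ ?_ ?_ ?_
  · rw [← hpb]
    have h5 : Real.exp (-(c1 * K)) ≤ Real.exp (-(c * K)) := by
      refine Real.exp_le_exp.2 ?_
      nlinarith
    have h6 : 20 * (M : ℝ) ^ 2 ≤ C * (M : ℝ) ^ 2 :=
      mul_le_mul_of_nonneg_right hC20 (by positivity)
    exact mul_le_mul h6 h5 (Real.exp_pos _).le (by positivity)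
  · refine he.trans ?_
    have h5 : Real.exp (-(cb / 6 * K)) ≤ Real.exp (-(c * K)) := by
      refine Real.exp_le_exp.2 ?_
      nlinarith
    have h6 : C' * n ^ 6 * ((K : ℝ) * M) ^ 6 ≤ C * n ^ 6 * ((K : ℝ) * M) ^ 6 := by
      gcongr
    exact mul_le_mul h6 h5 (Real.exp_pos _).le (by positivity)
  · refine hB0.trans ?_
    gcongr
  · refine hB1.trans ?_
    gcongr
  · have h5 : Real.exp (-(cb * K)) ≤ Real.exp (-(c * K)) := by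
      refine Real.exp_le_exp.2 ?_
      nlinarith
    have h6 : Cg * ((K : ℝ) * M) ^ 6 ≤ C * ((K : ℝ) * M) ^ 6 := by
      gcongr
    exact mul_le_mul h6 h5 (Real.exp_pos _).le (by positivity)
  · unfold H783.gg
    rw [if_pos rfl]
  · intro m hm
    unfold H783.gg
    rw [if_neg (by omega)]
  · intro m hm
    have hg := H783.gg_nonneg s K M m
    have h5 : ((K : ℝ) * M) ^ 2 * y / 4 * pb ≤ C * ((K : ℝ) * M) ^ 2 * y * pb := by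
      refine mul_le_mul_of_nonneg_right ?_ hpb0
      have h6 : 0 ≤ ((K : ℝ) * M) ^ 2 * y := by positivity
      nlinarith
    have h6 : Cg * B1 * gg s K M m ≤ C * B1 * gg s K M m :=
      mul_le_mul_of_nonneg_right (mul_le_mul_of_nonneg_right hCCg hB10) hg
    refine add_le_add h5 (mul_le_mul_of_nonneg_left ?_ (by positivity))
    linarith

/-- **part C** -/
theorem stepC {b₁ b₂ δ L₀ Cb cb : ℝ} (hb1 : 0 < b₁) (hδ : 0 < δ) (hL₀ : 0 < L₀) (hCb : 0 ≤ Cb)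
    (hcb : 0 < cb) : StepC b₁ b₂ δ L₀ Cb cb := by
  have hpi := Real.pi_pos
  obtain ⟨ρ, hρ0, hρ1, hρ2⟩ : ∃ ρ : ℝ, 0 < ρ ∧ ρ ≤ L₀ / 8 ∧ ρ ≤ Real.exp (-1) :=
    ⟨min (L₀ / 8) (Real.exp (-1)), lt_min (by positivity) (Real.exp_pos _), min_le_left _ _,
      min_le_right _ _⟩
  obtain ⟨bb, hbb0, hbb2⟩ : ∃ bb : ℝ, 0 < bb ∧ b₂ ≤ bb :=
    ⟨max b₂ 1, lt_of_lt_of_le one_pos (le_max_right _ _), le_max_left _ _⟩
  obtain ⟨s, Cg, X₀, hs, hCg, hX₀, K₀, hK₀, hsh⟩ := H783.sh_Ft hδ hL₀ hCb hcb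
  obtain ⟨k1, hk1⟩ := H783.size_num hL₀ hCb hcb hρ0
  have hc00 : 0 < H339.c0 (L₀ / 8) bb := H339.c0_pos (by positivity) hbb0
  obtain ⟨c, hc0, hc6, hcc⟩ : ∃ c : ℝ, 0 < c ∧ c ≤ cb / 6 ∧ c ≤ H339.c0 (L₀ / 8) bb :=
    ⟨min (cb / 6) (H339.c0 (L₀ / 8) bb), lt_min (by positivity) hc00, min_le_left _ _,
      min_le_right _ _⟩
  have hccb : c ≤ cb := hc6.trans (by linarith)
  obtain ⟨k2, hk2⟩ := H556.num hc0
  refine ⟨max k1 k2, fun k hk => ?_⟩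
  obtain ⟨C', hC', h1⟩ := hk1 k ((le_max_left _ _).trans hk)
  obtain ⟨C, hCC', hCCg, hC20⟩ : ∃ C : ℝ, C' ≤ C ∧ Cg ≤ C ∧ 20 ≤ C :=
    ⟨max (max C' Cg) 20, (le_max_left _ _).trans (le_max_left _ _),
      (le_max_right _ _).trans (le_max_left _ _), le_max_right _ _⟩
  have hC0 : 0 ≤ C := by linarith
  have hK0 := H164.K0_nonneg
  obtain ⟨p0, hp0⟩ := hk2 k ((le_max_right _ _).trans hk) C (64 / 3 * Real.pi ^ 2)
    (8 * Real.pi ^ 2 * H164.K0) 6 s hC0 (by positivity) (by positivity) hs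
  obtain ⟨p, hpp0, hp2⟩ : ∃ p : ℕ, p0 ≤ p ∧ 2 ≤ p := ⟨max p0 2, le_max_left _ _, le_max_right _ _⟩
  obtain ⟨y1, hy1, hy1', h2⟩ := h1 X₀ K₀ p hp2
  obtain ⟨y2, hy2, hy2', h3⟩ := hp0 p hpp0
  refine ⟨p, by omega, min y1 y2, max 1 (L₀ / 8 / (10 * bb)), lt_min hy1 hy2, ?_⟩
  intro b y a ξ N _ hb1' hb2' hX hy hys ha ha' hN hQ hB
  have hb0 : 0 ≤ b := by linarith
  have hX1 : (1 : ℝ) ≤ ξ := (le_max_left _ _).trans hX
  have hX2 : L₀ / 8 / (10 * bb) ≤ ξ := (le_max_right _ _).trans hX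
  have hξ : 0 < ξ := by
    have : (0 : ℝ) < ξ := by linarith
    exact_mod_cast this
  have hξ' : (0 : ℝ) < ξ := by linarith
  have hyy1 : y ≤ y1 := hys.trans (min_le_left _ _)
  have hyy2 : y ≤ y2 := hys.trans (min_le_right _ _)
  generalize hKd : Kn k y = K at hN ⊢
  generalize hMd : Mn p y = M at hN ⊢
  obtain ⟨hKK₀, hXK, hw1, hKy, hR2, hR6, hRK, hd1, hB0, hB1, he⟩ :=
    h2 y hy hyy1 K M hKd.symm hMd.symm (Real.log (1 / y)) (((K : ℝ) - 9) / 6) rfl rfl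
  obtain ⟨hCw, hyK, hnum⟩ :=
    h3 y hy hyy2 (Real.log (1 / y)) (K : ℝ) (M : ℝ) rfl (by rw [hKd]) (by rw [hMd])
  rw [hKd, hMd] at hnum
  generalize hRd : ((K : ℝ) - 9) / 6 = R at hR2 hR6 hRK hd1 hB0 hB1 he
  have hK18 : 18 ≤ K := hK₀.trans hKK₀
  have hK0' : 0 < K := by omega
  have hM2 : 2 ≤ M := by
    rw [← hMd]
    exact two_le_Mn p y
  have hM0 : 0 < M := by omega
  have hKr : (0 : ℝ) < K := by exact_mod_cast hK0'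
  have hMr : (0 : ℝ) < M := by exact_mod_cast hM0
  have : NeZero M := ⟨hM0.ne'⟩
  have : NeZero (K * M) := ⟨(Nat.mul_pos hK0' hM0).ne'⟩
  have hn0 : 0 ≤ Real.log (1 / y) := by
    apply Real.log_nonneg
    rw [le_div_iff₀ hy]
    linarith
  generalize hnd : Real.log (1 / y) = n at hB0 hB1 he hnum hn0
  obtain ⟨r, hr1, hr2⟩ : ∃ r : ℕ, 2 * r ≤ ξ ∧ ξ ≤ 2 * r + 1 := ⟨ξ / 2, by omega, by omega⟩
  have hr3 : 2 * r < K * ξ := by nlinarith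
  have hel := eLoc_nonneg K M cb R hCb
  obtain ⟨pb, hpb⟩ : ∃ pb : ℝ, 20 * (M : ℝ) ^ 2 * Real.exp (-(H339.c0 (L₀ / 8) bb * K)) = pb :=
    ⟨_, rfl⟩
  have hB10 : 0 ≤ tcA ρ ((K : ℝ) ^ 2 * y) + L₀ * K * M * eLoc K M Cb cb R := by
    have := tcA_nonneg hρ0 (show 0 < (K : ℝ) ^ 2 * y by positivity) hKy
    positivity
  have hLξ : L₀ / 8 ≤ 10 * bb * ξ := by
    rw [div_le_iff₀ (by positivity)] at hX2
    linarith
  have hsh' := hsh K M ξ r N b y a hb0 hKK₀ hXK hξ hN hr1 hy.le hw1 ha ha' hQ hB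
  have hD := fun (m : ℕ) (hm : 1 ≤ m) (_ : m ≤ (K * M) ^ 2) =>
    D_bound hb0 (hb2'.trans hbb2) hbb0 hξ hK18 hM2 hN hr1 hr2 hQ hy hw1 hL₀ hCb hcb.le hB hR2 hR6
      hRK hρ0 hρ1 hρ2 hKy hd1 hLξ hsh' hm hpb
  refine H164.step_of_num hb0 hξ hK0' hM2 hN hr3 hQ hy.le (C := C) (by linarith) hCw hyK _ hD ?_
  exact num_app hy.le hn0 hCC' hCg.le hCCg hC20 hc6 hcb hcc hpb hnum he hB0 hB1 hB10

end

end Vale.Agent.P159.TM.H907
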