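import Mathlib

set_option autoImplicit false

namespace Vale.Agent.P159.TM.H907

open MeasureTheory Real Set

/-! ### One dimensional Gaussian estimates -/

/-- completing the square -/
lemma sq_complete (σ b s : ℝ) (hσ : 0 < σ) :
    -(b * s) - σ * s ^ 2 / 2 = b ^ 2 / (2 * σ) + (-(σ / 2) * (s + b / σ) ^ 2) := by
  field_simp
  ring

lemma integrable_gauss_lin (σ b : ℝ) (hσ : 0 < σ) :
    Integrable (fun s : ℝ => Real.exp (-(b * s) - σ * s ^ 2 / 2)) := by
  have h1 : Integrable (fun s : ℝ => Real.exp (-(σ / 2) * s ^ 2)) :=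
    integrable_exp_neg_mul_sq (by positivity)
  have h2 := (h1.comp_add_right (b / σ)).const_mul (Real.exp (b ^ 2 / (2 * σ)))
  refine h2.congr (Filter.Eventually.of_forall fun s => ?_)
  simp only
  rw [sq_complete σ b s hσ, Real.exp_add]

lemma gauss_lin (σ b : ℝ) (hσ : 0 < σ) :
    ∫ s : ℝ, Real.exp (-(b * s) - σ * s ^ 2 / 2)
      = Real.sqrt (2 * π / σ) * Real.exp (b ^ 2 / (2 * σ)) := by
  have h1 : ∀ s : ℝ, Real.exp (-(b * s) - σ * s ^ 2 / 2)
      = Real.exp (b ^ 2 / (2 * σ)) * Real.exp (-(σ / 2) * (s + b / σ) ^ 2) := by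
    intro s
    rw [sq_complete σ b s hσ, Real.exp_add]
  simp_rw [h1]
  rw [integral_const_mul]
  have h2 : ∫ s : ℝ, Real.exp (-(σ / 2) * (s + b / σ) ^ 2)
      = ∫ s : ℝ, Real.exp (-(σ / 2) * s ^ 2) :=
    integral_add_right_eq_self (fun s : ℝ => Real.exp (-(σ / 2) * s ^ 2)) (b / σ)
  rw [h2, integral_gaussian, mul_comm]
  congr 2
  field_simp

lemma gauss_osc (σ b ω : ℝ) (hσ : 0 < σ) :
    ‖∫ s : ℝ, (Real.exp (-(b * s) - σ * s ^ 2 / 2) : ℂ) * Complex.exp (Complex.I * ω * s)‖
      = Real.sqrt (2 * π / σ) * Real.exp (b ^ 2 / (2 * σ)) * Real.exp (-(ω ^ 2 / (2 * σ))) := by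
  have h1 : ∀ s : ℝ, (Real.exp (-(b * s) - σ * s ^ 2 / 2) : ℂ) * Complex.exp (Complex.I * ω * s)
      = Complex.exp ((((-(σ / 2) : ℝ)) : ℂ) * (s : ℂ) ^ 2 + (Complex.I * ω - b) * s + 0) := by
    intro s
    rw [Complex.ofReal_exp, ← Complex.exp_add]
    congr 1
    push_cast
    ring
  simp_rw [h1]
  rw [integral_cexp_quadratic (by simp; positivity)]
  rw [norm_mul]
  have h2 : ((π : ℂ) / -(((-(σ / 2) : ℝ)) : ℂ)) = ((2 * π / σ : ℝ) : ℂ) := by
    push_cast
    field_simp
  rw [h2]
  have h3 : ‖(((2 * π / σ : ℝ) : ℂ)) ^ (1 / 2 : ℂ)‖ = Real.sqrt (2 * π / σ) := by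
    rw [Complex.norm_cpow_eq_rpow_re_of_pos (by positivity)]
    rw [Real.sqrt_eq_rpow]
    norm_num
  rw [h3, Complex.norm_exp, mul_assoc, ← Real.exp_add]
  congr 2
  have h4 : ((0 : ℂ) - (Complex.I * ω - b) ^ 2 / (4 * (((-(σ / 2) : ℝ)) : ℂ)))
      = (((b ^ 2 - ω ^ 2) / (2 * σ) : ℝ) : ℂ) + ((-(b * ω / σ) : ℝ) : ℂ) * Complex.I := by
    have hs : (σ : ℂ) ≠ 0 := by exact_mod_cast hσ.ne'
    push_cast
    field_simp
    ring_nf
    simp [Complex.I_sq]
    ring
  rw [h4, Complex.add_re, Complex.ofReal_re, Complex.re_ofReal_mul, Complex.I_re]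
  field_simp
  ring

/-- tail of a Gaussian with linear term whose centre is within `T/2` -/
lemma gauss_tail (v q b T : ℝ) (hv : 0 < v) (hq : 0 ≤ q) (hT : 0 < T) (hb : |b| ≤ T / (2 * v)) :
    ∫ s in {s : ℝ | T < |s|}, Real.exp (-(b * s) - (q + 1 / v) * s ^ 2 / 2)
      ≤ (Real.sqrt 2 * Real.exp (-(T ^ 2 / (16 * v)))) *
        (Real.sqrt (2 * π / (q + 1 / v)) * Real.exp (b ^ 2 / (2 * (q + 1 / v)))) := by
  set σ := q + 1 / v with hσd
  have hv1 : 0 < 1 / v := by positivity
  have hσ : 0 < σ := by positivity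
  have hσv : 1 / v ≤ σ := by linarith
  have hms : MeasurableSet {s : ℝ | T < |s|} := measurableSet_lt measurable_const (by fun_prop)
  -- pointwise bound
  have hpt : ∀ s ∈ {s : ℝ | T < |s|}, Real.exp (-(b * s) - σ * s ^ 2 / 2)
      ≤ Real.exp (b ^ 2 / (2 * σ)) * Real.exp (-(T ^ 2 / (16 * v))) *
        Real.exp (-(σ / 4) * (s + b / σ) ^ 2) := by
    intro s hs
    rw [sq_complete σ b s hσ, ← Real.exp_add, ← Real.exp_add]
    apply Real.exp_le_exp.2
    have hc : |b / σ| ≤ T / 2 := by
      rw [abs_div, abs_of_pos hσ, div_le_iff₀ hσ]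
      calc |b| ≤ T / (2 * v) := hb
        _ = T / 2 * (1 / v) := by field_simp
        _ ≤ T / 2 * σ := by gcongr
    have hd : T / 2 ≤ |s + b / σ| := by
      have h1 : |s| ≤ |s + b / σ| + |b / σ| := by
        have := abs_sub (s + b / σ) (b / σ)
        simpa using this
      have : T < |s| := hs
      linarith
    have hsq : T ^ 2 / 4 ≤ (s + b / σ) ^ 2 := by
      rw [← sq_abs (s + b / σ)]
      nlinarith [abs_nonneg (s + b / σ)]
    have h2 : T ^ 2 / (16 * v) ≤ σ / 4 * (s + b / σ) ^ 2 := by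
      calc T ^ 2 / (16 * v) = (1 / v) / 4 * (T ^ 2 / 4) := by field_simp; ring
        _ ≤ σ / 4 * (s + b / σ) ^ 2 := by gcongr
    nlinarith
  have hi1 : Integrable (fun s : ℝ => Real.exp (b ^ 2 / (2 * σ)) * Real.exp (-(T ^ 2 / (16 * v))) *
        Real.exp (-(σ / 4) * (s + b / σ) ^ 2)) := by
    have h1 : Integrable (fun s : ℝ => Real.exp (-(σ / 4) * s ^ 2)) :=
      integrable_exp_neg_mul_sq (by positivity)
    exact (h1.comp_add_right (b / σ)).const_mul _
  have hi0 := integrable_gauss_lin σ b hσ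
  calc ∫ s in {s : ℝ | T < |s|}, Real.exp (-(b * s) - σ * s ^ 2 / 2)
      ≤ ∫ s in {s : ℝ | T < |s|}, Real.exp (b ^ 2 / (2 * σ)) * Real.exp (-(T ^ 2 / (16 * v))) *
        Real.exp (-(σ / 4) * (s + b / σ) ^ 2) :=
        setIntegral_mono_on hi0.integrableOn hi1.integrableOn hms hpt
    _ ≤ ∫ s : ℝ, Real.exp (b ^ 2 / (2 * σ)) * Real.exp (-(T ^ 2 / (16 * v))) *
        Real.exp (-(σ / 4) * (s + b / σ) ^ 2) := by
        apply setIntegral_le_integral hi1
        exact Filter.Eventually.of_forall fun s => by positivity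
    _ = _ := by
        rw [integral_const_mul]
        have h2 : ∫ s : ℝ, Real.exp (-(σ / 4) * (s + b / σ) ^ 2)
            = ∫ s : ℝ, Real.exp (-(σ / 4) * s ^ 2) :=
          integral_add_right_eq_self (fun s : ℝ => Real.exp (-(σ / 4) * s ^ 2)) (b / σ)
        rw [h2, integral_gaussian]
        have h3 : Real.sqrt (π / (σ / 4)) = Real.sqrt 2 * Real.sqrt (2 * π / σ) := by
          rw [← Real.sqrt_mul (by norm_num)]
          congr 1
          field_simp
          ring
        rw [h3]
        ring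

/-- truncated integral is close to the full one -/
lemma gauss_trunc_lower (v q b T : ℝ) (hv : 0 < v) (hq : 0 ≤ q) (hT : 0 < T)
    (hb : |b| ≤ T / (2 * v)) :
    (1 - Real.sqrt 2 * Real.exp (-(T ^ 2 / (16 * v)))) *
        (Real.sqrt (2 * π / (q + 1 / v)) * Real.exp (b ^ 2 / (2 * (q + 1 / v))))
      ≤ ∫ s in {s : ℝ | |s| ≤ T}, Real.exp (-(b * s) - (q + 1 / v) * s ^ 2 / 2) := by
  have hσ : 0 < q + 1 / v := by positivity
  have hi0 := integrable_gauss_lin (q + 1 / v) b hσ
  have hms : MeasurableSet {s : ℝ | |s| ≤ T} := measurableSet_le (by fun_prop) measurable_const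
  have h1 := integral_add_compl hms hi0
  have h2 : {s : ℝ | |s| ≤ T}ᶜ = {s : ℝ | T < |s|} := by
    ext s; simp
  rw [h2, gauss_lin _ _ hσ] at h1
  have h3 := gauss_tail v q b T hv hq hT hb
  linarith

/-- **One shell**: oscillating integral against real integral. -/
lemma one_shell (v q0 q b T η ω : ℝ) (hv : 0 < v) (hq : 0 ≤ q) (hqq : q ≤ q0) (hT : 0 < T)
    (hη : 0 ≤ η) (hb : |b| ≤ T / (2 * v)) (w : ℝ → ℝ) (hwm : Measurable w)
    (hw : ∀ s, |s| ≤ T → |w s - b * s - q * s ^ 2 / 2| ≤ η)
    (hτ : Real.sqrt 2 * Real.exp (-(T ^ 2 / (16 * v))) < 1) :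
    ‖∫ s in {s : ℝ | |s| ≤ T}, (Real.exp (-(s ^ 2 / (2 * v)) - w s) : ℂ) *
        Complex.exp (Complex.I * ω * s)‖
      ≤ (Real.exp η * (Real.exp (-(ω ^ 2 / (2 * (q0 + 1 / v))))
          + Real.sqrt 2 * Real.exp (-(T ^ 2 / (16 * v))) + (Real.exp η - 1)) /
          (1 - Real.sqrt 2 * Real.exp (-(T ^ 2 / (16 * v))))) *
        ∫ s in {s : ℝ | |s| ≤ T}, Real.exp (-(s ^ 2 / (2 * v)) - w s) := by
  set σ := q + 1 / v with hσd
  set τ := Real.sqrt 2 * Real.exp (-(T ^ 2 / (16 * v))) with hτd
  have hv1 : 0 < 1 / v := by positivity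
  have hσ : 0 < σ := by positivity
  have hτ0 : 0 ≤ τ := by positivity
  set J := Real.sqrt (2 * π / σ) * Real.exp (b ^ 2 / (2 * σ)) with hJd
  have hJ : 0 < J := by positivity
  set S : Set ℝ := {s : ℝ | |s| ≤ T} with hSd
  have hms : MeasurableSet S := measurableSet_le (by fun_prop) measurable_const
  have hSc : Sᶜ = {s : ℝ | T < |s|} := by
    ext s; simp [hSd]
  -- the Gaussian comparison function
  set G : ℝ → ℝ := fun s => Real.exp (-(b * s) - σ * s ^ 2 / 2) with hGd
  have hG : Integrable G := integrable_gauss_lin σ b hσ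
  have hGpos : ∀ s, 0 < G s := fun s => Real.exp_pos _
  -- the error factor
  set e : ℝ → ℝ := fun s => Real.exp (-(w s - b * s - q * s ^ 2 / 2)) with hed
  have hfac : ∀ s, Real.exp (-(s ^ 2 / (2 * v)) - w s) = G s * e s := by
    intro s
    simp only [hGd, hed]
    rw [← Real.exp_add]
    congr 1
    simp only [hσd]
    field_simp
    ring
  have heS : ∀ s ∈ S, |e s - 1| ≤ Real.exp η - 1 ∧ Real.exp (-η) ≤ e s := by
    intro s hs
    have h1 := hw s hs
    rw [abs_le] at h1
    constructor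
    · rw [abs_le]
      constructor
      · have h2 : Real.exp (-η) ≤ e s := Real.exp_le_exp.2 (by linarith)
        have h3 : 1 - Real.exp (-η) ≤ Real.exp η - 1 := by
          have h4 : Real.exp (-η) = 1 / Real.exp η := by rw [Real.exp_neg]; simp
          have h5 : 1 ≤ Real.exp η := Real.one_le_exp hη
          rw [h4]
          have h6 : 0 < Real.exp η := Real.exp_pos _
          rw [sub_le_sub_iff]
          have h7 : 2 ≤ Real.exp η + 1 / Real.exp η := by
            rw [← sub_nonneg]
            have : Real.exp η + 1 / Real.exp η - 2 = (Real.exp η - 1) ^ 2 / Real.exp η := by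
              field_simp
              ring
            rw [this]; positivity
          linarith
        linarith
      · have h2 : e s ≤ Real.exp η := Real.exp_le_exp.2 (by linarith)
        linarith
    · exact Real.exp_le_exp.2 (by linarith)
  have hem : Measurable e := by
    simp only [hed]
    fun_prop
  have hGm : Measurable G := hG.1.measurable_mk.comp measurable_id |> fun _ => by
    simp only [hGd]; fun_prop
  -- integrability of G*e on S
  have hGe : IntegrableOn (fun s => G s * e s) S := by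
    have h1 : IntegrableOn (fun s => G s * Real.exp η) S := (hG.mul_const _).integrableOn
    refine h1.mono' ((hGm.mul hem).aestronglyMeasurable) ?_
    refine (ae_restrict_iff' hms).2 (Filter.Eventually.of_forall fun s hs => ?_)
    rw [Real.norm_eq_abs, abs_mul, abs_of_pos (hGpos s), abs_of_pos (Real.exp_pos _)]
    have h2 := hw s hs
    rw [abs_le] at h2
    have h3 : e s ≤ Real.exp η := Real.exp_le_exp.2 (by linarith)
    exact mul_le_mul_of_nonneg_left h3 (hGpos s).le
  -- lower bound of right-hand side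
  have hlow : Real.exp (-η) * ((1 - τ) * J) ≤ ∫ s in S, Real.exp (-(s ^ 2 / (2 * v)) - w s) := by
    have h1 := gauss_trunc_lower v q b T hv hq hT hb
    calc Real.exp (-η) * ((1 - τ) * J) ≤ Real.exp (-η) * ∫ s in S, G s := by
          gcongr
      _ = ∫ s in S, Real.exp (-η) * G s := by rw [integral_const_mul]
      _ ≤ ∫ s in S, G s * e s := by
          apply setIntegral_mono_on ((hG.const_mul _).integrableOn) hGe hms
          intro s hs
          rw [mul_comm]
          exact mul_le_mul_of_nonneg_left (heS s hs).2 (hGpos s).le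
      _ = _ := by
          apply setIntegral_congr_fun hms
          intro s _
          exact (hfac s).symm
  -- upper bound of the left-hand side
  have hosc : ∀ s : ℝ, ‖Complex.exp (Complex.I * ω * s)‖ = 1 := by
    intro s
    rw [Complex.norm_exp]
    simp
  have hGc : Integrable (fun s : ℝ => ((G s : ℝ) : ℂ) * Complex.exp (Complex.I * ω * s)) := by
    refine (hG.ofReal (𝕜 := ℂ)).mul_bdd (c := 1) (by fun_prop) ?_
    exact Filter.Eventually.of_forall fun s => (hosc s).le
  have hup : ‖∫ s in S, (Real.exp (-(s ^ 2 / (2 * v)) - w s) : ℂ) *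
        Complex.exp (Complex.I * ω * s)‖ ≤
        (Real.exp (-(ω ^ 2 / (2 * (q0 + 1 / v)))) + τ + (Real.exp η - 1)) * J := by
    have h1 : ∫ s in S, (Real.exp (-(s ^ 2 / (2 * v)) - w s) : ℂ) *
        Complex.exp (Complex.I * ω * s)
        = (∫ s in S, ((G s : ℝ) : ℂ) * Complex.exp (Complex.I * ω * s))
          + ∫ s in S, ((G s * (e s - 1) : ℝ) : ℂ) * Complex.exp (Complex.I * ω * s) := by
      rw [← integral_add hGc.integrableOn]
      · apply setIntegral_congr_fun hms
        intro s _
        simp only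
        rw [hfac s]
        push_cast
        ring
      · have h2 : IntegrableOn (fun s => G s * (e s - 1)) S := by
          have : (fun s => G s * (e s - 1)) = fun s => G s * e s - G s := by
            ext s; ring
          rw [this]
          exact hGe.sub hG.integrableOn
        refine (h2.ofReal (𝕜 := ℂ)).mul_bdd (c := 1) (by fun_prop) ?_
        exact Filter.Eventually.of_forall fun s => (hosc s).le
    rw [h1]
    refine (norm_add_le _ _).trans ?_
    have h3 : ‖∫ s in S, ((G s : ℝ) : ℂ) * Complex.exp (Complex.I * ω * s)‖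
        ≤ (Real.exp (-(ω ^ 2 / (2 * (q0 + 1 / v)))) + τ) * J := by
      have h4 := integral_add_compl hms hGc
      have h5 : ∫ s in S, ((G s : ℝ) : ℂ) * Complex.exp (Complex.I * ω * s)
          = (∫ s : ℝ, ((G s : ℝ) : ℂ) * Complex.exp (Complex.I * ω * s))
            - ∫ s in Sᶜ, ((G s : ℝ) : ℂ) * Complex.exp (Complex.I * ω * s) := by
        rw [← h4]; ring
      rw [h5]
      refine (norm_sub_le _ _).trans ?_
      have h6 : ‖∫ s : ℝ, ((G s : ℝ) : ℂ) * Complex.exp (Complex.I * ω * s)‖
          ≤ Real.exp (-(ω ^ 2 / (2 * (q0 + 1 / v)))) * J := by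
        have h7 := gauss_osc σ b ω hσ
        have h8 : (∫ s : ℝ, ((G s : ℝ) : ℂ) * Complex.exp (Complex.I * ω * s))
            = ∫ s : ℝ, (Real.exp (-(b * s) - σ * s ^ 2 / 2) : ℂ) *
              Complex.exp (Complex.I * ω * s) := by
          apply integral_congr_ae
          refine Filter.Eventually.of_forall fun s => ?_
          simp only [hGd]
        rw [h8, h7, mul_comm (Real.exp _) J]
        apply mul_le_mul_of_nonneg_left _ hJ.le
        apply Real.exp_le_exp.2
        apply neg_le_neg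
        gcongr
        simp only [hσd]
        linarith
      have h9 : ‖∫ s in Sᶜ, ((G s : ℝ) : ℂ) * Complex.exp (Complex.I * ω * s)‖ ≤ τ * J := by
        refine (norm_integral_le_integral_norm _).trans ?_
        have h10 : ∫ s in Sᶜ, ‖((G s : ℝ) : ℂ) * Complex.exp (Complex.I * ω * s)‖
            = ∫ s in {s : ℝ | T < |s|}, G s := by
          rw [hSc]
          apply integral_congr_ae
          refine Filter.Eventually.of_forall fun s => ?_
          simp only
          rw [norm_mul, hosc, mul_one, Complex.norm_real, Real.norm_eq_abs, abs_of_pos (hGpos s)]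
        rw [h10]
        exact gauss_tail v q b T hv hq hT hb
      calc _ ≤ Real.exp (-(ω ^ 2 / (2 * (q0 + 1 / v)))) * J + τ * J := add_le_add h6 h9
        _ = _ := by ring
    have h11 : ‖∫ s in S, ((G s * (e s - 1) : ℝ) : ℂ) * Complex.exp (Complex.I * ω * s)‖
        ≤ (Real.exp η - 1) * J := by
      refine (norm_integral_le_integral_norm _).trans ?_
      calc ∫ s in S, ‖((G s * (e s - 1) : ℝ) : ℂ) * Complex.exp (Complex.I * ω * s)‖
          ≤ ∫ s in S, (Real.exp η - 1) * G s := by
            apply integral_mono_of_nonneg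
            · exact Filter.Eventually.of_forall fun s => norm_nonneg _
            · exact (hG.const_mul _).integrableOn
            · refine (ae_restrict_iff' hms).2 (Filter.Eventually.of_forall fun s hs => ?_)
              simp only
              rw [norm_mul, hosc, mul_one, Complex.norm_real, Real.norm_eq_abs, abs_mul,
                abs_of_pos (hGpos s), mul_comm]
              exact mul_le_mul_of_nonneg_right (heS s hs).1 (hGpos s).le
        _ = (Real.exp η - 1) * ∫ s in S, G s := by rw [integral_const_mul]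
        _ ≤ (Real.exp η - 1) * J := by
            have h12 : 0 ≤ Real.exp η - 1 := by linarith [Real.one_le_exp hη]
            apply mul_le_mul_of_nonneg_left _ h12
            calc ∫ s in S, G s ≤ ∫ s, G s :=
                  setIntegral_le_integral hG (Filter.Eventually.of_forall fun s => (hGpos s).le)
              _ = J := gauss_lin σ b hσ
    calc _ ≤ (Real.exp (-(ω ^ 2 / (2 * (q0 + 1 / v)))) + τ) * J + (Real.exp η - 1) * J :=
          add_le_add h3 h11
      _ = _ := by ring
  -- combine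
  have h1τ : 0 < 1 - τ := by linarith
  have hη1 : 0 ≤ Real.exp η - 1 := by linarith [Real.one_le_exp hη]
  refine hup.trans ?_
  have hA : 0 ≤ Real.exp (-(ω ^ 2 / (2 * (q0 + 1 / v)))) + τ + (Real.exp η - 1) := by positivity
  have hkey : J ≤ Real.exp η / (1 - τ) *
      ∫ s in S, Real.exp (-(s ^ 2 / (2 * v)) - w s) := by
    rw [div_mul_eq_mul_div, le_div_iff₀ h1τ]
    calc J * (1 - τ) = Real.exp η * (Real.exp (-η) * ((1 - τ) * J)) := by
          rw [← mul_assoc (Real.exp η), ← Real.exp_add]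
          simp
          ring
      _ ≤ Real.exp η * ∫ s in S, Real.exp (-(s ^ 2 / (2 * v)) - w s) := by gcongr
  calc (Real.exp (-(ω ^ 2 / (2 * (q0 + 1 / v)))) + τ + (Real.exp η - 1)) * J
      ≤ (Real.exp (-(ω ^ 2 / (2 * (q0 + 1 / v)))) + τ + (Real.exp η - 1)) *
        (Real.exp η / (1 - τ) * ∫ s in S, Real.exp (-(s ^ 2 / (2 * v)) - w s)) :=
        mul_le_mul_of_nonneg_left hkey hA
    _ = _ := by ring

end Vale.Agent.P159.TM.H907
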