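import Mathlib
import Vale.Agent.P159.TM.H907.OneDim

set_option autoImplicit false

namespace Vale.Agent.P159.TM.H907

open MeasureTheory Real Set

set_option linter.unusedSectionVars false

variable {ι : Type*} [Fintype ι] {I : ℕ}

/-- the shift by `∑ tᵢ ψᵢ` -/
def sh (ψ : Fin I → ι → ℝ) (t : Fin I → ℝ) : ι → ℝ := ∑ i, t i • ψ i

lemma sh_zero (ψ : Fin I → ι → ℝ) : sh ψ 0 = 0 := by simp [sh]

lemma measurable_sh (ψ : Fin I → ι → ℝ) : Measurable (sh ψ) := by
  unfold sh
  fun_prop

lemma continuous_sh (ψ : Fin I → ι → ℝ) : Continuous (sh ψ) := by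
  unfold sh
  fun_prop

/-- the shear `(t,g) ↦ (t, g + sh t)` preserves the product Lebesgue measure -/
lemma mp_shear (ψ : Fin I → ι → ℝ) :
    MeasurePreserving (fun p : (Fin I → ℝ) × (ι → ℝ) => (p.1, p.2 + sh ψ p.1))
      ((volume : Measure (Fin I → ℝ)).prod (volume : Measure (ι → ℝ)))
      ((volume : Measure (Fin I → ℝ)).prod (volume : Measure (ι → ℝ))) := by
  have h := MeasurePreserving.skew_product (μa := (volume : Measure (Fin I → ℝ)))
    (μb := (volume : Measure (Fin I → ℝ))) (μc := (volume : Measure (ι → ℝ)))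
    (μd := (volume : Measure (ι → ℝ))) (f := id) (MeasurePreserving.id _)
    (g := fun t g => g + sh ψ t) ?_ ?_
  · exact h
  · have := measurable_sh ψ
    unfold Function.uncurry
    fun_prop
  · refine Filter.Eventually.of_forall fun t => ?_
    exact map_add_right_eq_self _ _

/-- change of variables for integrable functions on the product -/
lemma integral_shear {E : Type*} [NormedAddCommGroup E] [NormedSpace ℝ E] (ψ : Fin I → ι → ℝ)
    (f : (Fin I → ℝ) × (ι → ℝ) → E)
    (hf : AEStronglyMeasurable f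
      ((volume : Measure (Fin I → ℝ)).prod (volume : Measure (ι → ℝ)))) :
    ∫ p, f (p.1, p.2 + sh ψ p.1) ∂((volume : Measure (Fin I → ℝ)).prod (volume : Measure (ι → ℝ)))
      = ∫ p, f p ∂((volume : Measure (Fin I → ℝ)).prod (volume : Measure (ι → ℝ))) := by
  have h := mp_shear (ι := ι) ψ
  have h2 := integral_map (μ := (volume : Measure (Fin I → ℝ)).prod (volume : Measure (ι → ℝ)))
    (φ := fun p : (Fin I → ℝ) × (ι → ℝ) => (p.1, p.2 + sh ψ p.1)) h.measurable.aemeasurable
    (f := f) (by rw [h.map_eq]; exact hf)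
  rw [h.map_eq] at h2
  exact h2.symm

lemma integrable_shear {E : Type*} [NormedAddCommGroup E] (ψ : Fin I → ι → ℝ)
    (f : (Fin I → ℝ) × (ι → ℝ) → E)
    (hf : Integrable f ((volume : Measure (Fin I → ℝ)).prod (volume : Measure (ι → ℝ)))) :
    Integrable (fun p : (Fin I → ℝ) × (ι → ℝ) => f (p.1, p.2 + sh ψ p.1))
      ((volume : Measure (Fin I → ℝ)).prod (volume : Measure (ι → ℝ))) :=
  ((mp_shear (ι := ι) ψ).integrable_comp hf.1).2 hf

/-- **Exponential square moment of the slopes** from the one sided second order bound. -/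
lemma slope_moment (V : (ι → ℝ) → ℝ) (hV : Continuous V)
    (hint : Integrable (fun g : ι → ℝ => Real.exp (-V g)))
    (ψ : Fin I → ι → ℝ) (b : Fin I → (ι → ℝ) → ℝ) (hb : ∀ i, Measurable (b i))
    (q : ℝ) (hq : 0 < q)
    (H1 : ∀ g t, V (g + sh ψ t) ≤ V g + ∑ i, t i * b i g + q / 2 * ∑ i, (t i) ^ 2) :
    Integrable (fun g : ι → ℝ => Real.exp (-V g) * Real.exp (∑ i, (b i g) ^ 2 / (4 * q))) ∧
    ∫ g : ι → ℝ, Real.exp (-V g) * Real.exp (∑ i, (b i g) ^ 2 / (4 * q))
      ≤ (Real.sqrt 2) ^ I * ∫ g : ι → ℝ, Real.exp (-V g) := by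
  classical
  -- the Gaussian kernel
  set k : (Fin I → ℝ) → ℝ := fun t => ∏ i, Real.exp (-(q / 2) * (t i) ^ 2) with hk
  have hkint : Integrable k := by
    have := Integrable.fintype_prod (𝕜 := ℝ) (ι := Fin I) (E := ℝ)
      (f := fun _ s => Real.exp (-(q / 2) * s ^ 2)) (μ := fun _ => (volume : Measure ℝ))
      (fun _ => integrable_exp_neg_mul_sq (by positivity))
    exact this
  have hkval : ∫ t, k t = (Real.sqrt (π / (q / 2))) ^ I := by
    have := integral_fintype_prod_volume_eq_prod (𝕜 := ℝ) (ι := Fin I) (E := fun _ => ℝ)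
      (fun _ s => Real.exp (-(q / 2) * s ^ 2))
    rw [hk, this]
    simp only [integral_gaussian, Finset.prod_const, Finset.card_univ, Fintype.card_fin]
  have hkpos : ∀ t, 0 < k t := fun t => Finset.prod_pos fun i _ => Real.exp_pos _
  set μ := (volume : Measure (Fin I → ℝ)).prod (volume : Measure (ι → ℝ)) with hμ
  -- integrand on the product
  have h0 : Integrable (fun p : (Fin I → ℝ) × (ι → ℝ) => k p.1 * Real.exp (-V p.2)) μ :=
    hkint.mul_prod hint
  have h1 : Integrable (fun p : (Fin I → ℝ) × (ι → ℝ) => k p.1 * Real.exp (-V (p.2 + sh ψ p.1))) μ :=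
    integrable_shear ψ _ h0
  have h1v : ∫ p, k p.1 * Real.exp (-V (p.2 + sh ψ p.1)) ∂μ
      = (Real.sqrt (π / (q / 2))) ^ I * ∫ g, Real.exp (-V g) := by
    have := integral_shear ψ (fun p : (Fin I → ℝ) × (ι → ℝ) => k p.1 * Real.exp (-V p.2)) h0.1
    have h12 := integral_prod_mul (μ := (volume : Measure (Fin I → ℝ)))
      (ν := (volume : Measure (ι → ℝ))) (L := ℝ) k (fun g => Real.exp (-V g))
    rw [hkval] at h12
    exact this.trans h12
  -- lower bound function
  set L : (Fin I → ℝ) × (ι → ℝ) → ℝ := fun p =>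
    Real.exp (-V p.2) * ∏ i, Real.exp (-(b i p.2 * p.1 i) - (2 * q) * (p.1 i) ^ 2 / 2) with hL
  have hLle : ∀ p, L p ≤ k p.1 * Real.exp (-V (p.2 + sh ψ p.1)) := by
    intro p
    simp only [hL, hk]
    rw [← Real.exp_sum, ← Real.exp_sum, ← Real.exp_add, ← Real.exp_add]
    apply Real.exp_le_exp.2
    have h2 := H1 p.2 p.1
    have h3 : ∑ i, (-(b i p.2 * p.1 i) - (2 * q) * (p.1 i) ^ 2 / 2)
        = -(∑ i, p.1 i * b i p.2) - q * ∑ i, (p.1 i) ^ 2 := by
      rw [Finset.sum_sub_distrib, Finset.mul_sum, Finset.sum_neg_distrib]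
      congr 1
      · congr 1
        exact Finset.sum_congr rfl fun i _ => mul_comm _ _
      · exact Finset.sum_congr rfl fun i _ => by ring
    have h4 : ∑ i, (-(q / 2) * (p.1 i) ^ 2) = -(q / 2) * ∑ i, (p.1 i) ^ 2 := by
      rw [Finset.mul_sum]
    rw [h3, h4]
    linarith
  have hLm : Measurable L := by
    simp only [hL]
    have hVm := hV.measurable
    apply Measurable.mul
    · fun_prop
    · apply Finset.measurable_prod
      intro i _
      have := hb i
      fun_prop
  have hLpos : ∀ p, 0 < L p := fun p =>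
    mul_pos (Real.exp_pos _) (Finset.prod_pos fun i _ => Real.exp_pos _)
  have hLint : Integrable L μ := by
    refine h1.mono' hLm.aestronglyMeasurable (Filter.Eventually.of_forall fun p => ?_)
    rw [Real.norm_eq_abs, abs_of_pos (hLpos p)]
    exact hLle p
  -- inner integral of L
  have hin : ∀ g : ι → ℝ, ∫ t : Fin I → ℝ, L (t, g)
      = (Real.sqrt (π / q)) ^ I * (Real.exp (-V g) * Real.exp (∑ i, (b i g) ^ 2 / (4 * q))) := by
    intro g
    simp only [hL]
    rw [integral_const_mul]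
    have := integral_fintype_prod_volume_eq_prod (𝕜 := ℝ) (ι := Fin I) (E := fun _ => ℝ)
      (fun i s => Real.exp (-(b i g * s) - (2 * q) * s ^ 2 / 2))
    rw [this]
    have h5 : ∀ i, ∫ s : ℝ, Real.exp (-(b i g * s) - (2 * q) * s ^ 2 / 2)
        = Real.sqrt (π / q) * Real.exp ((b i g) ^ 2 / (4 * q)) := by
      intro i
      have h6 := gauss_lin (2 * q) (b i g) (by positivity)
      have h13 : 2 * π / (2 * q) = π / q := by field_simp
      have h14 : (b i g) ^ 2 / (2 * (2 * q)) = (b i g) ^ 2 / (4 * q) := by ring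
      rw [h6, h13, h14]
    simp only [h5]
    rw [Finset.prod_mul_distrib, ← Real.exp_sum]
    simp only [Finset.prod_const, Finset.card_univ, Fintype.card_fin]
    ring
  have hsym := integral_prod_symm L hLint
  simp only [hin] at hsym
  have hqpos : 0 < Real.sqrt (π / q) := Real.sqrt_pos.2 (by positivity)
  have hI2 : Integrable (fun g : ι → ℝ => (Real.sqrt (π / q)) ^ I *
      (Real.exp (-V g) * Real.exp (∑ i, (b i g) ^ 2 / (4 * q)))) := by
    have := hLint.integral_prod_right
    simp only [hin] at this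
    exact this
  have hI3 : Integrable (fun g : ι → ℝ =>
      (Real.exp (-V g) * Real.exp (∑ i, (b i g) ^ 2 / (4 * q)))) := by
    have h7 := hI2.const_mul ((Real.sqrt (π / q)) ^ I)⁻¹
    refine h7.congr (Filter.Eventually.of_forall fun g => ?_)
    simp only
    rw [inv_mul_cancel_left₀ (by positivity)]
  refine ⟨hI3, ?_⟩
  have h8 : ∫ p, L p ∂μ ≤ ∫ p, k p.1 * Real.exp (-V (p.2 + sh ψ p.1)) ∂μ :=
    integral_mono hLint h1 hLle
  rw [hsym, h1v, integral_const_mul] at h8
  have h9 : Real.sqrt (π / (q / 2)) = Real.sqrt 2 * Real.sqrt (π / q) := by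
    rw [← Real.sqrt_mul (by norm_num)]
    congr 1
    field_simp
  rw [h9, mul_pow] at h8
  have h10 : 0 < (Real.sqrt (π / q)) ^ I := by positivity
  have h11 : (Real.sqrt (π / q)) ^ I *
      ∫ g : ι → ℝ, Real.exp (-V g) * Real.exp (∑ i, (b i g) ^ 2 / (4 * q))
      ≤ (Real.sqrt (π / q)) ^ I * ((Real.sqrt 2) ^ I * ∫ g : ι → ℝ, Real.exp (-V g)) := by
    calc _ ≤ _ := h8
      _ = _ := by ring
  exact le_of_mul_le_mul_left h11 h10

end Vale.Agent.P159.TM.H907
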