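import Mathlib

/-!
P159 T1, part C, row ASMC: the splitting of the expectation of a charged functional into local
parts, good set and exceptional set.
-/

namespace Vale.Agent.P159.TM.H907

open MeasureTheory Finset

variable {E : Type*} [MeasurableSpace E] {μ : Measure E}

/-- `∫ X ρ` from: `X = ∑ x_β`, `|X| ≤ W₀`; `F_β` close to `x_β` on the good set `S`, `|F_β| ≤ B₀`,
`|∫ F_β ρ| ≤ s ∫ ρ` and `∫_{Sᶜ} ρ ≤ p ∫ ρ`. -/
theorem split_le {ι : Type*} [Fintype ι] {ρ : E → ℝ} (hρ0 : ∀ g, 0 ≤ ρ g)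
    (hρi : Integrable ρ μ) {S : Set E} (hS : MeasurableSet S) {X : E → ℂ} {x F : ι → E → ℂ}
    (hXx : ∀ g, X g = ∑ β, x β g) (hxm : ∀ β, Measurable (x β)) (hFm : ∀ β, Measurable (F β))
    {W₀ B₀ e s p : ℝ} (hX : ∀ g, ‖X g‖ ≤ W₀) (hF : ∀ β g, ‖F β g‖ ≤ B₀)
    (hxF : ∀ β, ∀ g ∈ S, ‖x β g - F β g‖ ≤ e)
    (hsh : ∀ β, ‖∫ g, F β g * (ρ g : ℂ) ∂μ‖ ≤ s * ∫ g, ρ g ∂μ)
    (hbad : ∫ g in Sᶜ, ρ g ∂μ ≤ p * ∫ g, ρ g ∂μ) (hW : 0 ≤ W₀) (hB : 0 ≤ B₀) (he : 0 ≤ e) :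
    ‖∫ g, X g * (ρ g : ℂ) ∂μ‖ ≤
      (W₀ * p + Fintype.card ι * (e + B₀ * p + s)) * ∫ g, ρ g ∂μ := by
  have hXm : Measurable X := by
    have h1 : X = fun g => ∑ β, x β g := funext hXx
    rw [h1]
    exact Finset.measurable_fun_sum _ fun β _ => hxm β
  have hρc : Integrable (fun g => (ρ g : ℂ)) μ := hρi.ofReal
  have intb : ∀ {Y : E → ℂ} {c : ℝ}, Measurable Y → (∀ g, ‖Y g‖ ≤ c) →
      Integrable (fun g => Y g * (ρ g : ℂ)) μ := by
    intro Y c hY hc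
    exact hρc.bdd_mul hY.aestronglyMeasurable (Filter.Eventually.of_forall hc)
  have nrm : ∀ {Y : E → ℂ} {c : ℝ} {A : Set E}, MeasurableSet A → (∀ g ∈ A, ‖Y g‖ ≤ c) →
      ‖∫ g in A, Y g * (ρ g : ℂ) ∂μ‖ ≤ c * ∫ g in A, ρ g ∂μ := by
    intro Y c A hA hc
    rw [← integral_const_mul]
    refine norm_integral_le_of_norm_le (hρi.integrableOn.const_mul c) ?_
    refine (ae_restrict_iff' hA).2 (Filter.Eventually.of_forall fun g hg => ?_)
    rw [norm_mul, Complex.norm_real, Real.norm_of_nonneg (hρ0 g)]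
    exact mul_le_mul_of_nonneg_right (hc g hg) (hρ0 g)
  have hXi := intb hXm hX
  have hρn : 0 ≤ ∫ g, ρ g ∂μ := integral_nonneg hρ0
  have hSle : ∫ g in S, ρ g ∂μ ≤ ∫ g, ρ g ∂μ :=
    setIntegral_le_integral hρi (Filter.Eventually.of_forall hρ0)
  -- bad set
  have h1 : ‖∫ g in Sᶜ, X g * (ρ g : ℂ) ∂μ‖ ≤ W₀ * (p * ∫ g, ρ g ∂μ) :=
    (nrm hS.compl fun g _ => hX g).trans (mul_le_mul_of_nonneg_left hbad hW)
  -- good set: `X = ∑ (x - F) + ∑ F`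
  have hxi : ∀ β, IntegrableOn (fun g => (x β g - F β g) * (ρ g : ℂ)) S μ := by
    intro β
    refine Integrable.mono' (hρi.integrableOn.const_mul e) ?_ ?_
    · exact (((hxm β).sub (hFm β)).aestronglyMeasurable.mul
        hρc.aestronglyMeasurable).restrict
    · refine (ae_restrict_iff' hS).2 (Filter.Eventually.of_forall fun g hg => ?_)
      rw [norm_mul, Complex.norm_real, Real.norm_of_nonneg (hρ0 g)]
      exact mul_le_mul_of_nonneg_right (hxF β g hg) (hρ0 g)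
  have hFi : ∀ β, Integrable (fun g => F β g * (ρ g : ℂ)) μ := fun β => intb (hFm β) (hF β)
  have h2 : ∫ g in S, X g * (ρ g : ℂ) ∂μ = ∑ β, (∫ g in S, (x β g - F β g) * (ρ g : ℂ) ∂μ +
      (∫ g, F β g * (ρ g : ℂ) ∂μ - ∫ g in Sᶜ, F β g * (ρ g : ℂ) ∂μ)) := by
    have e1 : ∀ β, ∫ g, F β g * (ρ g : ℂ) ∂μ - ∫ g in Sᶜ, F β g * (ρ g : ℂ) ∂μ =
        ∫ g in S, F β g * (ρ g : ℂ) ∂μ := by
      intro β
      rw [← integral_add_compl hS (hFi β)]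
      ring
    simp only [e1]
    have e2 : ∀ β, ∫ g in S, (x β g - F β g) * (ρ g : ℂ) ∂μ + ∫ g in S, F β g * (ρ g : ℂ) ∂μ =
        ∫ g in S, x β g * (ρ g : ℂ) ∂μ := by
      intro β
      rw [← integral_add (hxi β) (hFi β).integrableOn]
      refine integral_congr_ae (Filter.Eventually.of_forall fun g => ?_)
      simp only
      ring
    simp only [e2]
    rw [← integral_finsetSum]
    · refine integral_congr_ae (Filter.Eventually.of_forall fun g => ?_)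
      simp only
      rw [hXx, Finset.sum_mul]
    · intro β _
      have h3 : (fun g => x β g * (ρ g : ℂ)) =
          fun g => (x β g - F β g) * (ρ g : ℂ) + F β g * (ρ g : ℂ) := by
        funext g
        ring
      rw [h3]
      exact (hxi β).add (hFi β).integrableOn
  have h3 : ∀ β, ‖∫ g in S, (x β g - F β g) * (ρ g : ℂ) ∂μ +
      (∫ g, F β g * (ρ g : ℂ) ∂μ - ∫ g in Sᶜ, F β g * (ρ g : ℂ) ∂μ)‖ ≤
      (e + B₀ * p + s) * ∫ g, ρ g ∂μ := by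
    intro β
    have a1 : ‖∫ g in S, (x β g - F β g) * (ρ g : ℂ) ∂μ‖ ≤ e * ∫ g, ρ g ∂μ :=
      (nrm hS (hxF β)).trans (mul_le_mul_of_nonneg_left hSle he)
    have a2 : ‖∫ g in Sᶜ, F β g * (ρ g : ℂ) ∂μ‖ ≤ B₀ * (p * ∫ g, ρ g ∂μ) :=
      (nrm hS.compl fun g _ => hF β g).trans (mul_le_mul_of_nonneg_left hbad hB)
    have a3 := hsh β
    calc _ ≤ ‖∫ g in S, (x β g - F β g) * (ρ g : ℂ) ∂μ‖ +
        (‖∫ g, F β g * (ρ g : ℂ) ∂μ‖ + ‖∫ g in Sᶜ, F β g * (ρ g : ℂ) ∂μ‖) :=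
          (norm_add_le _ _).trans (add_le_add le_rfl (norm_sub_le _ _))
      _ ≤ e * ∫ g, ρ g ∂μ + (s * ∫ g, ρ g ∂μ + B₀ * (p * ∫ g, ρ g ∂μ)) :=
          add_le_add a1 (add_le_add a3 a2)
      _ = _ := by ring
  have h4 : ‖∫ g in S, X g * (ρ g : ℂ) ∂μ‖ ≤
      Fintype.card ι * ((e + B₀ * p + s) * ∫ g, ρ g ∂μ) := by
    rw [h2]
    refine (norm_sum_le _ _).trans ((Finset.sum_le_sum fun β _ => h3 β).trans (le_of_eq ?_))
    rw [Finset.sum_const, Finset.card_univ, nsmul_eq_mul]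
  rw [← integral_add_compl hS hXi]
  refine (norm_add_le _ _).trans ((add_le_add h4 h1).trans (le_of_eq ?_))
  ring

end Vale.Agent.P159.TM.H907
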